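import Mathlib.Tactic

/-! The combinatorial core: a system of intervals (roles) on the rational line that no family of
intervals can imitate. -/

namespace Vale.Agent.P302

open Classical in
/-- number of closed intervals of `M` that contain `t` -/
noncomputable def cov (M : Multiset (ℚ × ℚ)) (t : ℚ) : ℕ :=
  M.countP (fun p => p.1 ≤ t ∧ t ≤ p.2)

open Classical in
/-- number of intervals of `M` of length at least `x` -/
noncomputable def long (M : Multiset (ℚ × ℚ)) (x : ℚ) : ℕ :=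
  M.countP (fun p => x ≤ p.2 - p.1)

/-- `x` is an end point of an interval of `M` -/
def IsEnd (M : Multiset (ℚ × ℚ)) (x : ℚ) : Prop :=
  ∃ p ∈ M, x = p.1 ∨ x = p.2

/-- the end points of the intervals of `M` -/
def ends (M : Multiset (ℚ × ℚ)) : Multiset ℚ := M.map Prod.fst + M.map Prod.snd

lemma card_ends (M : Multiset (ℚ × ℚ)) : (ends M).card = 2 * M.card := by
  simp [ends]; ring

lemma mem_ends {M : Multiset (ℚ × ℚ)} {x : ℚ} : x ∈ ends M ↔ IsEnd M x := by
  simp only [ends, Multiset.mem_add, Multiset.mem_map, IsEnd]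
  constructor
  · rintro (⟨p, hp, rfl⟩ | ⟨p, hp, rfl⟩)
    · exact ⟨p, hp, Or.inl rfl⟩
    · exact ⟨p, hp, Or.inr rfl⟩
  · rintro ⟨p, hp, rfl | rfl⟩
    · exact Or.inl ⟨p, hp, rfl⟩
    · exact Or.inr ⟨p, hp, rfl⟩

structure Good (h T : ℕ) (a e : ℚ) (R : Multiset (ℚ × ℚ)) : Prop where
  inside : ∀ p ∈ R, a ≤ p.1 ∧ p.1 < p.2 ∧ p.2 ≤ a + e
  even : Even R.card
  cov_le : ∀ t, cov R t ≤ 2 * h
  robust : ∀ M : Multiset (ℚ × ℚ), (∀ q ∈ M, IsEnd R q.1 ∧ IsEnd R q.2) →
    (∀ t, a ≤ t → t ≤ a + e → 2 * cov M t + 1 ≤ cov R t + h) →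
    (∀ p ∈ R, long R (p.2 - p.1) ≤ 2 * long M (p.2 - p.1) + T) → False

lemma good_zero (T : ℕ) (a e : ℚ) (he : 0 < e) : Good 0 T a e 0 where
  inside := by simp
  even := by simp
  cov_le := by simp [cov]
  robust := by
    intro M _ h2 _
    have := h2 a le_rfl (by linarith)
    simp [cov] at this

lemma cov_add (M M' : Multiset (ℚ × ℚ)) (t : ℚ) : cov (M + M') t = cov M t + cov M' t := by
  simp [cov, Multiset.countP_add]

lemma long_add (M M' : Multiset (ℚ × ℚ)) (t : ℚ) : long (M + M') t = long M t + long M' t := by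
  simp [long, Multiset.countP_add]

lemma cov_sum (s : Finset ℕ) (R : ℕ → Multiset (ℚ × ℚ)) (t : ℚ) :
    cov (∑ i ∈ s, R i) t = ∑ i ∈ s, cov (R i) t := by
  classical
  induction s using Finset.induction_on with
  | empty => simp [cov]
  | insert i s hi ih => rw [Finset.sum_insert hi, Finset.sum_insert hi, cov_add, ih]

lemma long_le_of_le {M M' : Multiset (ℚ × ℚ)} (h : M ≤ M') (t : ℚ) : long M t ≤ long M' t := by
  classical
  unfold long
  exact Multiset.countP_le_of_le _ h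

lemma cov_eq_zero {M : Multiset (ℚ × ℚ)} {t : ℚ} (h : ∀ p ∈ M, t < p.1 ∨ p.2 < t) :
    cov M t = 0 := by
  classical
  unfold cov
  rw [Multiset.countP_eq_zero]
  intro p hp hc
  rcases h p hp with h | h <;> linarith [hc.1, hc.2]

lemma countP_le_add {α : Type*} (M : Multiset α) (P Q S : α → Prop) [DecidablePred P]
    [DecidablePred Q] [DecidablePred S] (h : ∀ q ∈ M, P q → Q q ∨ S q) :
    M.countP P ≤ M.countP Q + M.countP S := by
  induction M using Multiset.induction_on with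
  | empty => simp
  | cons q M ih =>
    have ih' := ih (fun r hr => h r (Multiset.mem_cons_of_mem hr))
    have hq := h q (Multiset.mem_cons_self q M)
    simp only [Multiset.countP_cons]
    by_cases hP : P q
    · rcases hq hP with hQ | hS
      · simp only [hP, hQ, if_true]; omega
      · simp only [hP, hS, if_true]; omega
    · simp only [hP, if_false]; omega

open Classical in
lemma union_bound (M : Multiset (ℚ × ℚ)) (K : ℕ) (F : Multiset ℚ) (h : ∀ x ∈ F, cov M x ≤ K) :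
    M.countP (fun q => ∃ x ∈ F, q.1 ≤ x ∧ x ≤ q.2) ≤ K * F.card := by
  induction F using Multiset.induction_on with
  | empty => simp
  | cons x F ih =>
    have ih' := ih (fun y hy => h y (Multiset.mem_cons_of_mem hy))
    have hx := h x (Multiset.mem_cons_self x F)
    have := countP_le_add M (fun q => ∃ y ∈ x ::ₘ F, q.1 ≤ y ∧ y ≤ q.2)
      (fun q => q.1 ≤ x ∧ x ≤ q.2) (fun q => ∃ y ∈ F, q.1 ≤ y ∧ y ≤ q.2) (by
        rintro q _ ⟨y, hy, hq⟩
        rcases Multiset.mem_cons.1 hy with rfl | hy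
        · exact Or.inl hq
        · exact Or.inr ⟨y, hy, hq⟩)
    rw [Multiset.card_cons, Nat.mul_succ]
    unfold cov at hx
    omega

lemma exists_small (R : Multiset (ℚ × ℚ)) (hR : ∀ p ∈ R, p.1 < p.2) (w : ℚ) (hw : 0 < w) :
    ∃ w', 0 < w' ∧ w' ≤ w ∧ ∀ p ∈ R, w' < p.2 - p.1 := by
  induction R using Multiset.induction_on with
  | empty => exact ⟨w, hw, le_rfl, by simp⟩
  | cons p R ih =>
    obtain ⟨w', h0, h1, h2⟩ := ih (fun q hq => hR q (Multiset.mem_cons_of_mem hq))
    have hp := hR p (Multiset.mem_cons_self p R)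
    refine ⟨min w' ((p.2 - p.1) / 2), lt_min h0 (by linarith), (min_le_left _ _).trans h1, ?_⟩
    intro q hq
    rcases Multiset.mem_cons.1 hq with rfl | hq
    · exact lt_of_le_of_lt (min_le_right _ _) (by linarith)
    · exact lt_of_le_of_lt (min_le_left _ _) (h2 q hq)

/-- a row of clusters, each finer and more robust than the ones before it -/
lemma row (h K T0 : ℕ) (ih : ∀ (T : ℕ) (a e : ℚ), 0 < e → ∃ R, Good h T a e R)
    (x : ℕ → ℚ) (u : ℚ) (hu : 0 < u) :
    ∃ (R : ℕ → Multiset (ℚ × ℚ)) (w : ℕ → ℚ), ∀ j, 0 < w j ∧ w j ≤ u ∧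
      Good h (T0 + 4 * K * ∑ i ∈ Finset.range j, (R i).card) (x j) (w j) (R j) ∧
      ∀ i < j, ∀ p ∈ R i, w j < p.2 - p.1 := by
  choose G hG using ih
  have hs : ∀ (T : ℕ) (a : ℚ) (w : {w : ℚ // 0 < w}), ∃ w' : {w : ℚ // 0 < w},
      w'.1 ≤ w.1 ∧ ∀ p ∈ G T a w.1 w.2, w'.1 < p.2 - p.1 := by
    intro T a w
    obtain ⟨w', h0, h1, h2⟩ := exists_small (G T a w.1 w.2)
      (fun p hp => ((hG T a w.1 w.2).inside p hp).2.1) w.1 w.2
    exact ⟨⟨w', h0⟩, h1, h2⟩
  choose m hm1 hm2 using hs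
  let st : ℕ → ℕ × {w : ℚ // 0 < w} := fun j => Nat.rec (T0, ⟨u, hu⟩)
    (fun j s => (s.1 + 4 * K * (G s.1 (x j) s.2.1 s.2.2).card, m s.1 (x j) s.2)) j
  have st0 : st 0 = (T0, ⟨u, hu⟩) := rfl
  have stS : ∀ j, st (j + 1) = ((st j).1 + 4 * K * (G (st j).1 (x j) (st j).2.1 (st j).2.2).card,
      m (st j).1 (x j) (st j).2) := fun j => rfl
  let R : ℕ → Multiset (ℚ × ℚ) := fun j => G (st j).1 (x j) (st j).2.1 (st j).2.2
  have hT : ∀ j, (st j).1 = T0 + 4 * K * ∑ i ∈ Finset.range j, (R i).card := by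
    intro j
    induction j with
    | zero => simp [st0]
    | succ j ihj =>
      rw [stS, Finset.sum_range_succ, Nat.mul_add, ← Nat.add_assoc, ← ihj]
  have hanti : ∀ i j, i ≤ j → (st j).2.1 ≤ (st i).2.1 := by
    intro i j hij
    induction j, hij using Nat.le_induction with
    | base => exact le_rfl
    | succ j _ ihj =>
      refine le_trans ?_ ihj
      rw [stS]
      exact hm1 _ _ _
  refine ⟨R, fun j => (st j).2.1, fun j => ⟨(st j).2.2, ?_, ?_, ?_⟩⟩
  · have := hanti 0 j (Nat.zero_le j)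
    rw [st0] at this
    exact this
  · rw [← hT]
    exact hG _ _ _ _
  · intro i hij p hp
    refine lt_of_le_of_lt (hanti (i + 1) j hij) ?_
    rw [stS]
    exact hm2 _ _ _ p hp

end Vale.Agent.P302
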