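import Mathlib.Algebra.Order.Archimedean.Real.Basic
import Mathlib.Data.Finsupp.Basic
import Mathlib.Algebra.BigOperators.Finsupp.Basic
import Mathlib.Order.Lattice.Nat
import Mathlib.Data.Fintype.BigOperators

/-! Bin packing: the optimum and the Gilmore-Gomory configuration LP value. -/

namespace Vale.Agent.P302

/-- A bin packing instance: item sizes `a 0, ..., a (n-1)`, rational numbers in `(0,1]`. -/
def IsInstance {n : ℕ} (a : Fin n → ℚ) : Prop :=
  ∀ i, 0 < a i ∧ a i ≤ 1

/-- `OPT a`: the least number `k` of bins such that the items can be distributed over `k` bins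
(`f i` is the bin of item `i`), each of total size at most `1`. -/
noncomputable def OPT {n : ℕ} (a : Fin n → ℚ) : ℕ :=
  sInf {k : ℕ | ∃ f : Fin n → Fin k, ∀ b : Fin k,
    ∑ i ∈ Finset.univ.filter (fun i => f i = b), a i ≤ 1}

/-- The set of distinct sizes of the instance. -/
def sizes {n : ℕ} (a : Fin n → ℚ) : Finset ℚ :=
  Finset.univ.image a

/-- The multiplicity of the size `s` in the instance. -/
def mult {n : ℕ} (a : Fin n → ℚ) (s : ℚ) : ℕ :=
  (Finset.univ.filter (fun i => a i = s)).card

/-- A configuration: a vector of nonnegative integers indexed by the distinct sizes, of total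
size at most `1`. -/
def IsConfig {n : ℕ} (a : Fin n → ℚ) (c : sizes a → ℕ) : Prop :=
  ∑ s : sizes a, (s : ℚ) * (c s : ℚ) ≤ 1

/-- `LP a`: the value of the Gilmore-Gomory configuration linear program, the infimum of
`∑ c, z c` over nonnegative real weights `z` on configurations that cover each size `s` at least
`mult a s` times. -/
noncomputable def LP {n : ℕ} (a : Fin n → ℚ) : ℝ :=
  sInf {v : ℝ | ∃ z : (sizes a → ℕ) →₀ ℝ,
    (∀ c, 0 ≤ z c) ∧ (∀ c ∈ z.support, IsConfig a c) ∧
    (∀ s : sizes a, (mult a s : ℝ) ≤ ∑ c ∈ z.support, (c s : ℝ) * z c) ∧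
    v = ∑ c ∈ z.support, z c}

end Vale.Agent.P302
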