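import Vale.Agent.P302.Step
import Mathlib.Data.Fin.Tuple.Sort

/-! Pairing consecutive values, and the three-dimensional matching instance. -/

namespace Vale.Agent.P302

open Finset

/-- sort `2N` values, pair consecutive ones and keep the smaller one of each pair -/
lemma pairing (N : ℕ) (f : Fin (2 * N) → ℚ) :
    ∃ (v : Fin N → ℚ) (g : Fin (2 * N) → Fin N), (∀ r, v (g r) ≤ f r) ∧
      (∀ k, 2 ≤ (univ.filter (fun r => g r = k)).card) ∧ (∀ k, ∃ r, v k = f r) ∧
      ∀ (p : ℚ → Prop) [DecidablePred p], (∀ x y, x ≤ y → p y → p x) →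
        2 * (univ.filter (fun k => p (v k))).card ≤ (univ.filter (fun r => p (f r))).card + 1 := by
  classical
  let e : Equiv.Perm (Fin (2 * N)) := Tuple.sort f
  have hmono : Monotone (f ∘ e) := Tuple.monotone_sort f
  let lo : Fin N → Fin (2 * N) := fun k => ⟨2 * k.1, by have := k.2; omega⟩
  let hi : Fin N → Fin (2 * N) := fun k => ⟨2 * k.1 + 1, by have := k.2; omega⟩
  let g : Fin (2 * N) → Fin N := fun r => ⟨(e.symm r).1 / 2, by have := (e.symm r).2; omega⟩
  refine ⟨fun k => f (e (lo k)), g, ?_, ?_, fun k => ⟨_, rfl⟩, ?_⟩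
  · intro r
    have h1 : lo (g r) ≤ e.symm r := by
      show 2 * ((e.symm r).1 / 2) ≤ (e.symm r).1
      omega
    have := hmono h1
    simpa using this
  · intro k
    have hsub : ({e (lo k), e (hi k)} : Finset (Fin (2 * N))) ⊆ univ.filter (fun r => g r = k) := by
      intro r hr
      simp only [mem_insert, mem_singleton] at hr
      simp only [mem_filter, mem_univ, true_and]
      rcases hr with rfl | rfl
      · apply Fin.ext
        simp only [g, Equiv.symm_apply_apply, lo]
        omega
      · apply Fin.ext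
        simp only [g, Equiv.symm_apply_apply, hi]
        omega
    have hne : e (lo k) ≠ e (hi k) := by
      intro h
      have := congrArg Fin.val (e.injective h)
      simp only [lo, hi] at this
      omega
    have := card_le_card hsub
    rwa [card_pair hne] at this
  · intro p _ hp
    set S := univ.filter (fun k : Fin N => p (f (e (lo k)))) with hS
    rcases S.eq_empty_or_nonempty with h | h
    · simp [h]
    · have hk := S.max'_mem h
      set k := S.max' h with hkdef
      have h1 : S.card ≤ k.1 + 1 := by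
        have : S ⊆ Iic k := fun j hj => mem_Iic.2 (S.le_max' j hj)
        have := card_le_card this
        rwa [Fin.card_Iic] at this
      have h2 : (Iic (lo k)).map e.toEmbedding ⊆ univ.filter (fun r => p (f r)) := by
        intro r hr
        obtain ⟨i, hi, rfl⟩ := mem_map.1 hr
        simp only [mem_filter, mem_univ, true_and]
        rw [hS, mem_filter] at hk
        exact hp _ _ (hmono (mem_Iic.1 hi)) hk.2
      have h3 := card_le_card h2
      rw [card_map, Fin.card_Iic] at h3
      simp only [lo] at h3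
      omega

lemma countP_univ_map {ι α : Type*} [Fintype ι] (f : ι → α) (P : α → Prop) [DecidablePred P] :
    ((univ : Finset ι).val.map f).countP P = (univ.filter (fun i => P (f i))).card := by
  rw [Multiset.countP_map]
  rfl

lemma card_filter_inj {B ι : Type*} [Fintype B] [Fintype ι] [DecidableEq ι] (i : B → ι)
    (hi : Function.Injective i) (P : ι → Prop) [DecidablePred P] :
    (univ.filter (fun b => P (i b))).card ≤ (univ.filter P).card := by
  apply card_le_card_of_injOn i
  · intro b hb
    simp only [coe_filter, mem_univ, true_and, Set.mem_ofPred_eq] at hb ⊢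
    exact hb
  · exact hi.injOn

lemma card_two_sides {ι : Type*} [Fintype ι] (l r : ι → ℚ) (h : ∀ i, l i ≤ r i) (t : ℚ) :
    (univ.filter (fun i => l i ≤ t)).card + (univ.filter (fun i => t ≤ r i)).card
      = Fintype.card ι + (univ.filter (fun i => l i ≤ t ∧ t ≤ r i)).card := by
  classical
  rw [← card_union_add_card_inter, ← filter_or, ← filter_and]
  congr 1
  rw [filter_true_of_mem, card_univ]
  intro i _
  by_contra hc
  push Not at hc
  linarith [h i, hc.1, hc.2]

/-- A numerical three-dimensional matching instance with a half-integral perfect matching in which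
every integral matching misses more than `W` triples. -/
theorem matching_gap (W : ℕ) : ∃ (N : ℕ) (l r s : Fin N → ℚ) (g1 g2 g3 : Fin (2 * N) → Fin N),
    (∀ k, 0 ≤ l k ∧ l k ≤ 1) ∧ (∀ k, 0 ≤ r k ∧ r k ≤ 1) ∧ (∀ k, 0 ≤ s k ∧ s k ≤ 1) ∧
    (∀ x, l (g1 x) + s (g3 x) ≤ r (g2 x)) ∧
    (∀ k, 2 ≤ (univ.filter (fun x => g1 x = k)).card) ∧
    (∀ k, 2 ≤ (univ.filter (fun x => g2 x = k)).card) ∧
    (∀ k, 2 ≤ (univ.filter (fun x => g3 x = k)).card) ∧
    ∀ (B : Type) [Fintype B] (i j k : B → Fin N), Function.Injective i → Function.Injective j →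
      Function.Injective k → (∀ b, l (i b) + s (k b) ≤ r (j b)) → Fintype.card B + W < N := by
  classical
  obtain ⟨R, hR⟩ := exists_good (2 * W + 3) (2 * W + 1) 0 1 one_pos
  obtain ⟨N, hN⟩ := hR.even
  have hN2 : R.card = 2 * N := by omega
  obtain ⟨ρ, hρ⟩ : ∃ ρ : Fin (2 * N) → ℚ × ℚ, (univ : Finset (Fin (2 * N))).val.map ρ = R := by
    have hlen : R.toList.length = 2 * N := by rw [Multiset.length_toList, hN2]
    refine ⟨fun x => R.toList.get (x.cast hlen.symm), ?_⟩
    rw [Fin.univ_val_map]
    conv_rhs => rw [← Multiset.coe_toList R]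
    congr 1
    apply List.ext_getElem
    · simp [hN2]
    · intro n h1 h2
      simp
  have hρmem : ∀ x, ρ x ∈ R := by
    intro x
    rw [← hρ]
    exact Multiset.mem_map_of_mem _ (mem_univ x)
  have hin : ∀ x, 0 ≤ (ρ x).1 ∧ (ρ x).1 < (ρ x).2 ∧ (ρ x).2 ≤ 1 := by
    intro x
    obtain ⟨h1, h2, h3⟩ := hR.inside _ (hρmem x)
    exact ⟨h1, h2, by linarith⟩
  obtain ⟨l, g1, hl1, hl2, hl3, hl4⟩ := pairing N (fun x => (ρ x).1)
  obtain ⟨r', g2, hr1, hr2, hr3, hr4⟩ := pairing N (fun x => -(ρ x).2)
  obtain ⟨s, g3, hs1, hs2, hs3, hs4⟩ := pairing N (fun x => (ρ x).2 - (ρ x).1)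
  have hs0 : ∀ k, 0 ≤ s k ∧ s k ≤ 1 := by
    intro k
    obtain ⟨x, hx⟩ := hs3 k
    obtain ⟨h1, h2, h3⟩ := hin x
    constructor <;> linarith
  refine ⟨N, l, fun k => -r' k, s, g1, g2, g3, ?_, ?_, hs0, ?_, hl2, hr2, hs2, ?_⟩
  · intro k
    obtain ⟨x, hx⟩ := hl3 k
    obtain ⟨h1, h2, h3⟩ := hin x
    constructor <;> linarith
  · intro k
    obtain ⟨x, hx⟩ := hr3 k
    obtain ⟨h1, h2, h3⟩ := hin x
    constructor <;> linarith
  · intro x
    linarith [hl1 x, hr1 x, hs1 x]
  intro B _ i j k hi hj hk hfit
  by_contra hcon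
  push Not at hcon
  refine hR.robust ((univ : Finset B).val.map (fun b => (l (i b), -r' (j b)))) ?_ ?_ ?_
  · intro q hq
    obtain ⟨b, -, rfl⟩ := Multiset.mem_map.1 hq
    obtain ⟨x, hx⟩ := hl3 (i b)
    obtain ⟨y, hy⟩ := hr3 (j b)
    exact ⟨⟨ρ x, hρmem x, Or.inl hx⟩, ⟨ρ y, hρmem y, Or.inr (by simp only; linarith)⟩⟩
  · intro t _ _
    have h1 := card_two_sides (fun b => l (i b)) (fun b => -r' (j b))
      (fun b => by linarith [hfit b, (hs0 (k b)).1]) t
    have h2 := card_two_sides (fun x => (ρ x).1) (fun x => (ρ x).2) (fun x => (hin x).2.1.le) t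
    have h3 := card_filter_inj i hi (fun x => l x ≤ t)
    have h4 := card_filter_inj j hj (fun x => t ≤ -r' x)
    have h5 := hl4 (fun y => y ≤ t) (fun x y hxy hy => hxy.trans hy)
    have h6 := hr4 (fun y => t ≤ -y) (fun x y hxy hy => by linarith)
    simp only [neg_neg] at h6
    rw [Fintype.card_fin] at h2
    have h7 : cov R t = (univ.filter (fun x => (ρ x).1 ≤ t ∧ t ≤ (ρ x).2)).card := by
      rw [← hρ]; unfold cov; rw [countP_univ_map]
    have h8 : cov ((univ : Finset B).val.map (fun b => (l (i b), -r' (j b)))) t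
        = (univ.filter (fun b => l (i b) ≤ t ∧ t ≤ -r' (j b))).card := by
      unfold cov; rw [countP_univ_map]
    rw [h7, h8]
    omega
  · intro p _
    set y := p.2 - p.1
    have h7 : long R y = (univ.filter (fun x => y ≤ (ρ x).2 - (ρ x).1)).card := by
      rw [← hρ]; unfold long; rw [countP_univ_map]
    have h8 : long ((univ : Finset B).val.map (fun b => (l (i b), -r' (j b)))) y
        = (univ.filter (fun b => y ≤ -r' (j b) - l (i b))).card := by
      unfold long; rw [countP_univ_map]
    rw [h7, h8]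
    have h1 := card_filter_inj k hk (fun x => s x < y)
    have h2 := hs4 (fun z => z < y) (fun x z hxz hz => lt_of_le_of_lt hxz hz)
    have h3 := card_filter_add_card_filter_not (s := (univ : Finset (Fin (2 * N))))
      (fun x => y ≤ (ρ x).2 - (ρ x).1)
    have h4 := card_filter_add_card_filter_not (s := (univ : Finset B)) (fun b => s (k b) < y)
    have h5 : (univ.filter (fun b => ¬ s (k b) < y)).card
        ≤ (univ.filter (fun b => y ≤ -r' (j b) - l (i b))).card := by
      apply card_le_card
      intro b hb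
      simp only [mem_filter, mem_univ, true_and, not_lt] at hb ⊢
      linarith [hfit b]
    simp only [not_le] at h3
    rw [card_univ, Fintype.card_fin] at h3
    rw [card_univ] at h4
    omega

end Vale.Agent.P302
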