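import Vale.Agent.P302.Defs
import Vale.Agent.P302.Pair

/-! From the matching instance to a bin packing instance. -/

namespace Vale.Agent.P302

open Finset

/-- a family of feasible bins covering each item twice bounds the LP value -/
lemma LP_le_of_double_cover {n : ℕ} (a : Fin n → ℚ) {J : Type} [Fintype J]
    (B : J → Finset (Fin n)) (hB : ∀ x, ∑ i ∈ B x, a i ≤ 1)
    (hcov : ∀ i, 2 ≤ (univ.filter (fun x => i ∈ B x)).card) :
    LP a ≤ (Fintype.card J : ℝ) / 2 := by
  classical
  let cfg : J → (sizes a → ℕ) := fun x s => ((B x).filter (fun i => a i = s)).card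
  let z : (sizes a → ℕ) →₀ ℝ := ∑ x : J, Finsupp.single (cfg x) (1 / 2 : ℝ)
  have hsum : ∀ φ : (sizes a → ℕ) → ℝ, ∑ c ∈ z.support, φ c * z c = ∑ x : J, φ (cfg x) * (1 / 2) := by
    intro φ
    have h1 : ∑ c ∈ z.support, φ c * z c = z.sum (fun c y => φ c * y) := rfl
    rw [h1]
    simp only [z]
    rw [← Finsupp.sum_finsetSum_index (by simp) (by intros; ring)]
    refine sum_congr rfl (fun x _ => ?_)
    rw [Finsupp.sum_single_index (by simp)]
  apply csInf_le
  · refine ⟨0, ?_⟩
    rintro v ⟨y, hy, -, -, rfl⟩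
    exact sum_nonneg (fun c _ => hy c)
  refine ⟨z, ?_, ?_, ?_, ?_⟩
  · intro c
    simp only [z, Finsupp.coe_finsetSum, Finset.sum_apply]
    refine sum_nonneg (fun x _ => ?_)
    rw [Finsupp.single_apply]
    split_ifs <;> norm_num
  · intro c hc
    obtain ⟨x, hx⟩ : ∃ x, cfg x = c := by
      by_contra hcon
      push Not at hcon
      rw [Finsupp.mem_support_iff] at hc
      apply hc
      simp only [z, Finsupp.coe_finsetSum, Finset.sum_apply]
      refine sum_eq_zero (fun x _ => ?_)
      rw [Finsupp.single_apply, if_neg (hcon x)]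
    subst hx
    unfold IsConfig
    refine le_trans (le_of_eq ?_) (hB x)
    rw [Finset.sum_coe_sort (sizes a) (fun s : ℚ => s * ((((B x).filter (fun i => a i = s)).card : ℕ) : ℚ))]
    rw [← Finset.sum_fiberwise_of_maps_to (s := B x) (t := sizes a) (g := a)
      (fun i _ => mem_image_of_mem a (mem_univ i))]
    refine sum_congr rfl (fun s _ => ?_)
    rw [sum_congr rfl (fun i hi => (mem_filter.1 hi).2), sum_const, nsmul_eq_mul, mul_comm]
  · intro s
    rw [hsum (fun c => (c s : ℝ))]
    have h1 : ∑ x : J, cfg x s = ∑ i ∈ univ.filter (fun i => a i = s),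
        (univ.filter (fun x => i ∈ B x)).card := by
      simp only [cfg, card_filter]
      rw [sum_comm]
      refine sum_congr rfl (fun x _ => ?_)
      rw [← card_filter, ← card_filter]
      congr 1
      ext i
      simp [and_comm]
    have h2 : 2 * mult a s ≤ ∑ x : J, cfg x s := by
      rw [h1, mult, mul_comm, ← smul_eq_mul, ← sum_const]
      exact sum_le_sum (fun i _ => hcov i)
    have h3 : (2 : ℝ) * mult a s ≤ ∑ x : J, (cfg x s : ℝ) := by exact_mod_cast h2
    rw [← sum_mul]
    linarith
  · have := hsum (fun _ => 1)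
    simp only [one_mul, sum_const, card_univ, nsmul_eq_mul] at this
    rw [this]
    ring

lemma OPT_spec {n : ℕ} (a : Fin n → ℚ) (ha : ∀ i, a i ≤ 1) :
    ∃ f : Fin n → Fin (OPT a), ∀ b, ∑ i ∈ univ.filter (fun i => f i = b), a i ≤ 1 := by
  have hne : {k : ℕ | ∃ f : Fin n → Fin k, ∀ b : Fin k,
      ∑ i ∈ Finset.univ.filter (fun i => f i = b), a i ≤ 1}.Nonempty := by
    refine ⟨n, id, fun b => ?_⟩
    simp only [id]
    rw [filter_eq', if_pos (mem_univ b), sum_singleton]
    exact ha b
  exact Nat.sInf_mem hne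

/-- the item sizes: left ends, right ends, lengths -/
def size {N : ℕ} (l r s : Fin N → ℚ) : Fin N ⊕ Fin N ⊕ Fin N → ℚ
  | Sum.inl k => (10 + l k) / 39
  | Sum.inr (Sum.inl k) => (13 - r k) / 39
  | Sum.inr (Sum.inr k) => (16 + s k) / 39

lemma sum_bin {N k : ℕ} (F : Fin N ⊕ Fin N ⊕ Fin N → ℚ) (φ : Fin N ⊕ Fin N ⊕ Fin N → Fin k)
    (b : Fin k) : ∑ y ∈ univ.filter (fun y => φ y = b), F y
      = ∑ i ∈ univ.filter (fun i => φ (Sum.inl i) = b), F (Sum.inl i)
        + ∑ i ∈ univ.filter (fun i => φ (Sum.inr (Sum.inl i)) = b), F (Sum.inr (Sum.inl i))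
        + ∑ i ∈ univ.filter (fun i => φ (Sum.inr (Sum.inr i)) = b), F (Sum.inr (Sum.inr i)) := by
  simp only [sum_filter, Fintype.sum_sum_type]
  ring

lemma sum_card_fibers {N k : ℕ} (ψ : Fin N → Fin k) :
    ∑ b : Fin k, (univ.filter (fun i => ψ i = b)).card = N := by
  rw [← card_eq_sum_card_fiberwise (s := univ) (t := univ) (f := ψ) (fun _ _ => mem_univ _)]
  simp

/-- a packing into `k` bins contains at least `19 N - 18 k` standard bins -/
lemma standard_bins {N k : ℕ} (l r s : Fin N → ℚ) (hl : ∀ i, 0 ≤ l i) (hr : ∀ i, r i ≤ 1)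
    (hs : ∀ i, 0 ≤ s i) (φ : Fin N ⊕ Fin N ⊕ Fin N → Fin k)
    (hφ : ∀ b, ∑ y ∈ univ.filter (fun y => φ y = b), size l r s y ≤ 1) :
    ∃ (B : Type) (_ : Fintype B) (i j m : B → Fin N), Function.Injective i ∧
      Function.Injective j ∧ Function.Injective m ∧ (∀ b, l (i b) + s (m b) ≤ r (j b)) ∧
      19 * N ≤ 18 * k + Fintype.card B := by
  classical
  let X : Fin k → Finset (Fin N) := fun b => univ.filter (fun i => φ (Sum.inl i) = b)
  let Y : Fin k → Finset (Fin N) := fun b => univ.filter (fun i => φ (Sum.inr (Sum.inl i)) = b)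
  let Z : Fin k → Finset (Fin N) := fun b => univ.filter (fun i => φ (Sum.inr (Sum.inr i)) = b)
  have hbin : ∀ b, ∑ i ∈ X b, (10 + l i) / 39 + ∑ i ∈ Y b, (13 - r i) / 39
      + ∑ i ∈ Z b, (16 + s i) / 39 ≤ 1 := by
    intro b
    have := hφ b
    rw [sum_bin] at this
    exact this
  have hw : ∀ b, 5 * (X b).card + 6 * (Y b).card + 8 * (Z b).card ≤ 19 := by
    intro b
    have h1 : ((X b).card : ℚ) * (10 / 39) ≤ ∑ i ∈ X b, (10 + l i) / 39 := by
      rw [← nsmul_eq_mul, ← sum_const]
      exact sum_le_sum (fun i _ => by linarith [hl i])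
    have h2 : ((Y b).card : ℚ) * (12 / 39) ≤ ∑ i ∈ Y b, (13 - r i) / 39 := by
      rw [← nsmul_eq_mul, ← sum_const]
      exact sum_le_sum (fun i _ => by linarith [hr i])
    have h3 : ((Z b).card : ℚ) * (16 / 39) ≤ ∑ i ∈ Z b, (16 + s i) / 39 := by
      rw [← nsmul_eq_mul, ← sum_const]
      exact sum_le_sum (fun i _ => by linarith [hs i])
    have h4 : (10 : ℚ) * (X b).card + 12 * (Y b).card + 16 * (Z b).card ≤ 39 := by
      linarith [hbin b]
    have h5 : 10 * (X b).card + 12 * (Y b).card + 16 * (Z b).card ≤ 39 := by exact_mod_cast h4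
    omega
  let Std : Fin k → Prop := fun b => (X b).card = 1 ∧ (Y b).card = 1 ∧ (Z b).card = 1
  have hw' : ∀ b, 5 * (X b).card + 6 * (Y b).card + 8 * (Z b).card
      ≤ 18 + if Std b then 1 else 0 := by
    intro b
    have h := hw b
    split_ifs with hb
    · omega
    · simp only [Std] at hb
      have hx : (X b).card ≤ 3 := by omega
      have hy : (Y b).card ≤ 3 := by omega
      have hz : (Z b).card ≤ 2 := by omega
      generalize (X b).card = x at *
      generalize (Y b).card = y at *
      generalize (Z b).card = z at *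
      interval_cases x <;> interval_cases y <;> interval_cases z <;> simp_all
  have htot : 19 * N ≤ 18 * k + (univ.filter (fun b => Std b)).card := by
    have h1 := sum_le_sum (fun b (_ : b ∈ (univ : Finset (Fin k))) => hw' b)
    simp only [sum_add_distrib, ← mul_sum, X, Y, Z, sum_card_fibers, sum_const, card_univ,
      Fintype.card_fin, smul_eq_mul] at h1
    rw [← card_filter] at h1
    omega
  have hex : ∀ b : {b // Std b}, ∃ i j m, X b = {i} ∧ Y b = {j} ∧ Z b = {m} := by
    rintro ⟨b, h1, h2, h3⟩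
    obtain ⟨i, hi⟩ := card_eq_one.1 h1
    obtain ⟨j, hj⟩ := card_eq_one.1 h2
    obtain ⟨m, hm⟩ := card_eq_one.1 h3
    exact ⟨i, j, m, hi, hj, hm⟩
  choose i j m hi hj hm using hex
  have hinj : ∀ (ψ : Fin N → Fin k) (p : {b // Std b} → Fin N),
      (∀ b, univ.filter (fun x => ψ x = b.1) = {p b}) → Function.Injective p := by
    intro ψ p hp b b' hbb
    have h1 : p b ∈ univ.filter (fun x => ψ x = b.1) := by rw [hp]; exact mem_singleton_self _
    have h2 : p b' ∈ univ.filter (fun x => ψ x = b'.1) := by rw [hp]; exact mem_singleton_self _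
    apply Subtype.ext
    rw [← (mem_filter.1 h1).2, ← (mem_filter.1 h2).2, hbb]
  refine ⟨{b // Std b}, inferInstance, i, j, m, hinj (fun x => φ (Sum.inl x)) i hi,
    hinj (fun x => φ (Sum.inr (Sum.inl x))) j hj, hinj (fun x => φ (Sum.inr (Sum.inr x))) m hm,
    ?_, ?_⟩
  · intro b
    have := hbin b
    rw [hi, hj, hm, sum_singleton, sum_singleton, sum_singleton] at this
    linarith
  · rw [Fintype.card_subtype]
    convert htot

/-- For every `c` there is an instance with all sizes in `(1/4, 1/2)` and an integer `N` with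
`LP ≤ N` and `OPT > N + c`. -/
theorem exists_gap (c : ℕ) : ∃ (n : ℕ) (a : Fin n → ℚ) (N : ℕ),
    (∀ i, 1 / 4 < a i ∧ a i < 1 / 2) ∧ LP a ≤ N ∧ N + c < OPT a := by
  classical
  obtain ⟨N, l, r, s, g1, g2, g3, hl, hr, hs, hfit, h1, h2, h3, hgap⟩ := matching_gap (18 * c)
  let e : Fin (Fintype.card (Fin N ⊕ Fin N ⊕ Fin N)) ≃ (Fin N ⊕ Fin N ⊕ Fin N) :=
    (Fintype.equivFin _).symm
  have hsz : ∀ y, 1 / 4 < size l r s y ∧ size l r s y < 1 / 2 := by
    rintro (k | k | k)
    · simp only [size]; constructor <;> linarith [(hl k).1, (hl k).2]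
    · simp only [size]; constructor <;> linarith [(hr k).1, (hr k).2]
    · simp only [size]; constructor <;> linarith [(hs k).1, (hs k).2]
  refine ⟨_, fun i => size l r s (e i), N, fun i => hsz _, ?_, ?_⟩
  · let T : Fin (2 * N) → Finset (Fin N ⊕ Fin N ⊕ Fin N) := fun x =>
      {Sum.inl (g1 x), Sum.inr (Sum.inl (g2 x)), Sum.inr (Sum.inr (g3 x))}
    have := LP_le_of_double_cover (fun i => size l r s (e i))
      (fun x : Fin (2 * N) => (T x).map e.symm.toEmbedding) ?_ ?_
    · rw [Fintype.card_fin] at this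
      push_cast at this
      linarith
    · intro x
      rw [sum_map]
      simp only [Equiv.coe_toEmbedding, Equiv.apply_symm_apply, T]
      rw [sum_insert (by simp), sum_pair (by simp)]
      simp only [size]
      linarith [hfit x]
    · intro i
      obtain ⟨y, rfl⟩ := e.symm.surjective i
      have hm : ∀ x, e.symm y ∈ (T x).map e.symm.toEmbedding ↔ y ∈ T x := fun x =>
        mem_map' e.symm.toEmbedding
      simp only [hm]
      rcases y with k | k | k
      · refine (h1 k).trans (card_le_card fun x hx => ?_)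
        simp only [mem_filter, mem_univ, true_and] at hx ⊢
        simp [T, hx]
      · refine (h2 k).trans (card_le_card fun x hx => ?_)
        simp only [mem_filter, mem_univ, true_and] at hx ⊢
        simp [T, hx]
      · refine (h3 k).trans (card_le_card fun x hx => ?_)
        simp only [mem_filter, mem_univ, true_and] at hx ⊢
        simp [T, hx]
  · obtain ⟨f, hf⟩ := OPT_spec (fun i => size l r s (e i)) (fun i => by linarith [(hsz (e i)).2])
    obtain ⟨B, _, i, j, m, hi, hj, hm, hb, hcard⟩ := standard_bins l r s (fun i => (hl i).1)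
      (fun i => (hr i).2) (fun i => (hs i).1) (fun y => f (e.symm y)) (by
        intro b
        refine le_trans (le_of_eq ?_) (hf b)
        symm
        apply Finset.sum_equiv e
        · intro i; simp
        · intro i _; rfl)
    have := hgap B i j m hi hj hm hb
    omega

end Vale.Agent.P302
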