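import Vale.Agent.P302.Core

/-! The induction step of the combinatorial core. -/

namespace Vale.Agent.P302

/-- the top roles -/
def topR (a u : ℚ) (d : ℕ) : Multiset (ℚ × ℚ) :=
  (Finset.range d).val.map (fun j : ℕ => (a + (4 * j + 2) * u, a + (4 * j + 7) * u))

lemma mem_topR {a u : ℚ} {d : ℕ} {p : ℚ × ℚ} :
    p ∈ topR a u d ↔ ∃ j < d, p = (a + (4 * (j : ℚ) + 2) * u, a + (4 * (j : ℚ) + 7) * u) := by
  simp only [topR, Multiset.mem_map, Finset.mem_val, Finset.mem_range]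
  constructor
  · rintro ⟨j, hj, rfl⟩; exact ⟨j, hj, rfl⟩
  · rintro ⟨j, hj, rfl⟩; exact ⟨j, hj, rfl⟩

lemma card_topR (a u : ℚ) (d : ℕ) : (topR a u d).card = d := by
  simp [topR]

open Classical in
lemma cov_topR (a u : ℚ) (d : ℕ) (t : ℚ) :
    cov (topR a u d) t = ((Finset.range d).filter
      (fun j : ℕ => a + (4 * j + 2) * u ≤ t ∧ t ≤ a + (4 * j + 7) * u)).card := by
  unfold cov topR
  rw [Multiset.countP_map]
  rfl

lemma cov_topR_two (a u : ℚ) (hu : 0 < u) (d : ℕ) (t : ℚ) : cov (topR a u d) t ≤ 2 := by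
  classical
  rw [cov_topR]
  set S := (Finset.range d).filter
      (fun j : ℕ => a + (4 * j + 2) * u ≤ t ∧ t ≤ a + (4 * j + 7) * u) with hS
  rcases S.eq_empty_or_nonempty with h | h
  · simp [h]
  · have hsub : S ⊆ {S.min' h, S.min' h + 1} := by
      intro j hj
      have h1 := S.min'_le j hj
      have h2 := S.min'_mem h
      set k := S.min' h
      rw [hS, Finset.mem_filter] at hj h2
      have h3 : (4 * (j : ℚ) + 2) * u ≤ (4 * (k : ℚ) + 7) * u := by linarith [hj.2.1, h2.2.2]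
      have h4 : 4 * (j : ℚ) + 2 ≤ 4 * (k : ℚ) + 7 := le_of_mul_le_mul_right h3 hu
      have h5 : 4 * j + 2 ≤ 4 * k + 7 := by exact_mod_cast h4
      simp only [Finset.mem_insert, Finset.mem_singleton]
      omega
    exact (Finset.card_le_card hsub).trans Finset.card_le_two

lemma cov_topR_one (a u : ℚ) (hu : 0 < u) (d j : ℕ) (t : ℚ) (h1 : a + (4 * j + 4) * u ≤ t)
    (h2 : t ≤ a + (4 * j + 5) * u) : cov (topR a u d) t ≤ 1 := by
  classical
  rw [cov_topR]
  have hsub : (Finset.range d).filter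
      (fun j : ℕ => a + (4 * j + 2) * u ≤ t ∧ t ≤ a + (4 * j + 7) * u) ⊆ {j} := by
    intro i hi
    rw [Finset.mem_filter] at hi
    have h3 : (4 * (i : ℚ) + 2) * u ≤ (4 * (j : ℚ) + 5) * u := by linarith [hi.2.1]
    have h4 : (4 * (j : ℚ) + 4) * u ≤ (4 * (i : ℚ) + 7) * u := by linarith [hi.2.2]
    have h5 : 4 * i + 2 ≤ 4 * j + 5 := by exact_mod_cast le_of_mul_le_mul_right h3 hu
    have h6 : 4 * j + 4 ≤ 4 * i + 7 := by exact_mod_cast le_of_mul_le_mul_right h4 hu
    simp only [Finset.mem_singleton]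
    omega
  exact (Finset.card_le_card hsub).trans (by simp)

lemma long_topR (a u : ℚ) (d : ℕ) : long (topR a u d) (5 * u) = d := by
  classical
  unfold long
  rw [Multiset.countP_eq_card.2, card_topR]
  intro p hp
  obtain ⟨j, _, rfl⟩ := mem_topR.1 hp
  simp only
  linarith

/-- a long interval contains a whole cluster -/
lemma exists_cluster (a u : ℚ) (hu : 0 < u) (d : ℕ) (l r : ℚ) (hl : a + 2 * u ≤ l)
    (hr : r ≤ a + (4 * d + 3) * u) (hlen : 5 * u ≤ r - l) :
    ∃ j < d, l ≤ a + (4 * (j : ℚ) + 4) * u ∧ a + (4 * (j : ℚ) + 5) * u ≤ r := by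
  set y := (l - a) / u / 4 with hy
  have hyu : l - a = 4 * y * u := by rw [hy]; field_simp
  have hy0 : 0 < y := by
    have : 0 < l - a := by linarith
    rw [hy]; positivity
  have hc1 : y ≤ (⌈y⌉₊ : ℚ) := Nat.le_ceil y
  have hc2 : (⌈y⌉₊ : ℚ) < y + 1 := Nat.ceil_lt_add_one hy0.le
  have hc0 : 0 < ⌈y⌉₊ := Nat.ceil_pos.2 hy0
  obtain ⟨j, hj⟩ : ∃ j, ⌈y⌉₊ = j + 1 := ⟨⌈y⌉₊ - 1, by omega⟩
  rw [hj] at hc1 hc2
  push_cast at hc1 hc2
  have hA : y * u ≤ ((j : ℚ) + 1) * u := mul_le_mul_of_nonneg_right hc1 hu.le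
  have hB : ((j : ℚ) + 1) * u < (y + 1) * u := mul_lt_mul_of_pos_right hc2 hu
  refine ⟨j, ?_, by linarith, by linarith⟩
  have h3 : (4 * (j : ℚ) + 5) * u < (4 * (d : ℚ) + 3) * u := by linarith
  have h4 : 4 * j + 5 < 4 * d + 3 := by exact_mod_cast lt_of_mul_lt_mul_right h3 hu.le
  omega

lemma good_succ (h : ℕ) (ih : ∀ (T : ℕ) (a e : ℚ), 0 < e → ∃ R, Good h T a e R)
    (T : ℕ) (a e : ℚ) (he : 0 < e) : ∃ R, Good (h + 1) T a e R := by
  classical
  set d : ℕ := 2 * (T + 1) with hd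
  set u : ℚ := e / (4 * d + 4) with hu_def
  have hu : 0 < u := by rw [hu_def]; positivity
  have heu : e = (4 * d + 4) * u := by rw [hu_def]; field_simp
  set K : ℕ := 2 * (h + 1) with hK
  obtain ⟨R, w, hR⟩ := row h K (T + 4 * K * d) ih (fun j => a + (4 * (j : ℚ) + 4) * u) u hu
  have hw0 : ∀ j, 0 < w j := fun j => (hR j).1
  have hwu : ∀ j, w j ≤ u := fun j => (hR j).2.1
  have hG := fun j => (hR j).2.2.1
  have hsm := fun j => (hR j).2.2.2
  -- location of the clusters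
  have hin : ∀ j, ∀ p ∈ R j, a + (4 * (j : ℚ) + 4) * u ≤ p.1 ∧ p.1 < p.2 ∧
      p.2 ≤ a + (4 * (j : ℚ) + 4) * u + w j := fun j p hp => (hG j).inside p hp
  have hend : ∀ j y, IsEnd (R j) y → a + (4 * (j : ℚ) + 4) * u ≤ y ∧
      y ≤ a + (4 * (j : ℚ) + 4) * u + w j := by
    rintro j y ⟨p, hp, rfl | rfl⟩
    · obtain ⟨h1, h2, h3⟩ := hin j p hp
      exact ⟨h1, by linarith⟩
    · obtain ⟨h1, h2, h3⟩ := hin j p hp
      exact ⟨by linarith, h3⟩
  have hstep : ∀ i j : ℕ, i < j → (4 * (i : ℚ) + 8) * u ≤ (4 * (j : ℚ) + 4) * u := by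
    intro i j hij
    have : (i : ℚ) + 1 ≤ j := by exact_mod_cast hij
    exact mul_le_mul_of_nonneg_right (by linarith) hu.le
  have hzero : ∀ (j i : ℕ) (t : ℚ), a + (4 * (j : ℚ) + 4) * u ≤ t →
      t ≤ a + (4 * (j : ℚ) + 5) * u → i ≠ j → cov (R i) t = 0 := by
    intro j i t h1 h2 hij
    apply cov_eq_zero
    intro p hp
    obtain ⟨h3, h4, h5⟩ := hin i p hp
    rcases lt_or_gt_of_ne hij with hlt | hlt
    · right
      have := hstep i j hlt
      linarith [hwu i]
    · left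
      have := hstep j i hlt
      linarith
  set Rall : Multiset (ℚ × ℚ) := topR a u d + ∑ i ∈ Finset.range d, R i with hRall
  have hmem : ∀ p, p ∈ Rall ↔ p ∈ topR a u d ∨ ∃ i < d, p ∈ R i := by
    intro p
    simp [hRall, Multiset.mem_add, Finset.mem_range]
  have hdq : ∀ j : ℕ, j < d → (4 * (j : ℚ) + 4) * u ≤ 4 * (d : ℚ) * u := by
    intro j hj
    have : (j : ℚ) + 1 ≤ d := by exact_mod_cast hj
    exact mul_le_mul_of_nonneg_right (by linarith) hu.le
  have hj0 : ∀ j : ℕ, 0 ≤ (j : ℚ) * u := fun j => by positivity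
  have hinside : ∀ p ∈ Rall, a + 2 * u ≤ p.1 ∧ p.1 < p.2 ∧ p.2 ≤ a + (4 * d + 3) * u := by
    intro p hp
    rcases (hmem p).1 hp with hp | ⟨i, hi, hp⟩
    · obtain ⟨j, hj, rfl⟩ := mem_topR.1 hp
      have := hdq j hj
      have := hj0 j
      refine ⟨?_, ?_, ?_⟩ <;> simp only <;> linarith
    · obtain ⟨h1, h2, h3⟩ := hin i p hp
      have := hdq i hi
      have := hj0 i
      have := hwu i
      refine ⟨?_, h2, ?_⟩ <;> linarith
  have hcov : ∀ t, cov Rall t ≤ 2 * (h + 1) := by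
    intro t
    rw [hRall, cov_add, cov_sum]
    have h2 := cov_topR_two a u hu d t
    have h3 : ∑ i ∈ Finset.range d, cov (R i) t ≤ 2 * h := by
      by_cases hex : ∃ j : ℕ, a + (4 * (j : ℚ) + 4) * u ≤ t ∧ t ≤ a + (4 * (j : ℚ) + 5) * u
      · obtain ⟨j, h1, h2⟩ := hex
        calc ∑ i ∈ Finset.range d, cov (R i) t ≤ cov (R j) t := by
              by_cases hjd : j ∈ Finset.range d
              · rw [Finset.sum_eq_single_of_mem j hjd (fun i _ hij => hzero j i t h1 h2 hij)]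
              · rw [Finset.sum_eq_zero (fun i hi => hzero j i t h1 h2 (fun hij => hjd (hij ▸ hi)))]
                exact Nat.zero_le _
          _ ≤ 2 * h := (hG j).cov_le t
      · rw [Finset.sum_eq_zero]
        · exact Nat.zero_le _
        · intro i _
          apply cov_eq_zero
          intro p hp
          obtain ⟨h3, h4, h5⟩ := hin i p hp
          by_contra hcon
          push Not at hcon
          exact hex ⟨i, by linarith [hcon.1], by linarith [hcon.2, hwu i]⟩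
    omega
  refine ⟨Rall, ?_, ?_, hcov, ?_⟩
  · intro p hp
    obtain ⟨h1, h2, h3⟩ := hinside p hp
    refine ⟨by linarith, h2, by linarith⟩
  · rw [hRall, Multiset.card_add, card_topR, Multiset.card_sum]
    refine Even.add ⟨T + 1, by omega⟩ (Finset.even_sum _ (fun i _ => (hG i).even))
  intro M hM1 hM2 hM3
  have hendall : ∀ y, IsEnd Rall y → a + 2 * u ≤ y ∧ y ≤ a + (4 * d + 3) * u := by
    rintro y ⟨p, hp, rfl | rfl⟩
    · obtain ⟨h1, h2, h3⟩ := hinside p hp
      exact ⟨h1, by linarith⟩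
    · obtain ⟨h1, h2, h3⟩ := hinside p hp
      exact ⟨by linarith, h3⟩
  have hMK : ∀ y, IsEnd Rall y → cov M y ≤ K := by
    intro y hy
    obtain ⟨h1, h2⟩ := hendall y hy
    have h3 := hM2 y (by linarith) (by linarith)
    have h4 := hcov y
    omega
  -- a long member of `M`
  have hd0 : 0 < d := by omega
  have hlong : 0 < long M (5 * u) := by
    have hp : (a + (4 * ((0 : ℕ) : ℚ) + 2) * u, a + (4 * ((0 : ℕ) : ℚ) + 7) * u) ∈ Rall :=
      (hmem _).2 (Or.inl (mem_topR.2 ⟨0, hd0, rfl⟩))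
    have h1 := hM3 _ hp
    have h2 : a + (4 * ((0 : ℕ) : ℚ) + 7) * u - (a + (4 * ((0 : ℕ) : ℚ) + 2) * u) = 5 * u := by
      ring
    simp only [h2] at h1
    have h3 : long (topR a u d) (5 * u) ≤ long Rall (5 * u) :=
      long_le_of_le (Multiset.le_add_right _ _) _
    rw [long_topR] at h3
    omega
  obtain ⟨q0, hq0M, hq0⟩ : ∃ q ∈ M, 5 * u ≤ q.2 - q.1 := by
    unfold long at hlong
    exact Multiset.countP_pos.1 hlong
  obtain ⟨j, hjd, hq1, hq2⟩ := exists_cluster a u hu d q0.1 q0.2 (hendall _ (hM1 q0 hq0M).1).1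
    (hendall _ (hM1 q0 hq0M).2).2 hq0
  set Mj := M.filter (fun q => IsEnd (R j) q.1 ∧ IsEnd (R j) q.2) with hMj
  refine (hG j).robust Mj (fun q hq => (Multiset.mem_filter.1 hq).2) ?_ ?_
  · intro t h1 h2
    have h2' : t ≤ a + (4 * (j : ℚ) + 5) * u := by linarith [hwu j]
    have hA : cov Mj t + 1 ≤ cov M t := by
      have hsplit := Multiset.filter_add_not (fun q : ℚ × ℚ => IsEnd (R j) q.1 ∧ IsEnd (R j) q.2) M
      have h3 : cov M t = cov Mj t + cov (M.filter
          (fun q => ¬ (IsEnd (R j) q.1 ∧ IsEnd (R j) q.2))) t := by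
        rw [← cov_add, hMj, hsplit]
      have h4 : 0 < cov (M.filter (fun q => ¬ (IsEnd (R j) q.1 ∧ IsEnd (R j) q.2))) t := by
        unfold cov
        refine Multiset.countP_pos.2 ⟨q0, Multiset.mem_filter.2 ⟨hq0M, ?_⟩, by linarith, by linarith⟩
        rintro ⟨hc1, hc2⟩
        have := (hend j _ hc2).2
        have := hwu j
        have := (hend j _ hc1).1
        linarith
      omega
    have hB : cov Rall t ≤ cov (R j) t + 1 := by
      rw [hRall, cov_add, cov_sum, Finset.sum_eq_single_of_mem j (Finset.mem_range.2 hjd)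
        (fun i _ hij => hzero j i t h1 h2' hij)]
      have := cov_topR_one a u hu d j t h1 h2'
      omega
    have hC := hM2 t (by linarith [hj0 j]) (by linarith [hdq j hjd])
    omega
  · intro p hp
    have hpall : p ∈ Rall := (hmem p).2 (Or.inr ⟨j, hjd, hp⟩)
    have h1 := hM3 p hpall
    have hpos : 0 < p.2 - p.1 := by linarith [(hin j p hp).2.1]
    have h2 : long (R j) (p.2 - p.1) ≤ long Rall (p.2 - p.1) := by
      apply long_le_of_le
      exact le_trans (Finset.single_le_sum (f := R) (fun i _ => Multiset.zero_le _)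
        (Finset.mem_range.2 hjd)) (Multiset.le_add_left _ _)
    set F := ends (topR a u d + ∑ i ∈ Finset.range j, R i) with hF
    have hFmem : ∀ y, y ∈ F ↔ IsEnd (topR a u d) y ∨ ∃ i < j, IsEnd (R i) y := by
      intro y
      rw [hF, mem_ends]
      simp only [IsEnd, Multiset.mem_add, Multiset.mem_sum, Finset.mem_range]
      constructor
      · rintro ⟨p, hp | ⟨i, hi, hp⟩, hy⟩
        · exact Or.inl ⟨p, hp, hy⟩
        · exact Or.inr ⟨i, hi, p, hp, hy⟩
      · rintro (⟨p, hp, hy⟩ | ⟨i, hi, p, hp, hy⟩)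
        · exact ⟨p, Or.inl hp, hy⟩
        · exact ⟨p, Or.inr ⟨i, hi, hp⟩, hy⟩
    have hFall : ∀ y ∈ F, IsEnd Rall y := by
      intro y hy
      rcases (hFmem y).1 hy with ⟨p, hp, hy⟩ | ⟨i, hi, p, hp, hy⟩
      · exact ⟨p, (hmem p).2 (Or.inl hp), hy⟩
      · exact ⟨p, (hmem p).2 (Or.inr ⟨i, by omega, hp⟩), hy⟩
    have hub := union_bound M K F (fun y hy => hMK y (hFall y hy))
    have hcardF : F.card = 2 * (d + ∑ i ∈ Finset.range j, (R i).card) := by
      rw [hF, card_ends, Multiset.card_add, card_topR, Multiset.card_sum]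
    have hcase : ∀ y, IsEnd Rall y → y ∈ F ∨ ∃ i, j ≤ i ∧ i < d ∧ IsEnd (R i) y := by
      rintro y ⟨p, hp, hy⟩
      rcases (hmem p).1 hp with hp | ⟨i, hi, hp⟩
      · exact Or.inl ((hFmem y).2 (Or.inl ⟨p, hp, hy⟩))
      · by_cases hij : i < j
        · exact Or.inl ((hFmem y).2 (Or.inr ⟨i, hij, p, hp, hy⟩))
        · exact Or.inr ⟨i, by omega, hi, p, hp, hy⟩
    have h3 := countP_le_add M (fun q => p.2 - p.1 ≤ q.2 - q.1)
      (fun q => p.2 - p.1 ≤ q.2 - q.1 ∧ (IsEnd (R j) q.1 ∧ IsEnd (R j) q.2))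
      (fun q => ∃ x ∈ F, q.1 ≤ x ∧ x ≤ q.2) (by
        intro q hq hlen
        have hq12 : q.1 ≤ q.2 := by linarith
        rcases hcase _ (hM1 q hq).1 with hF1 | ⟨i, hji, hid, hi⟩
        · exact Or.inr ⟨q.1, hF1, le_rfl, hq12⟩
        rcases hcase _ (hM1 q hq).2 with hF2 | ⟨i', hji', hid', hi'⟩
        · exact Or.inr ⟨q.2, hF2, hq12, le_rfl⟩
        obtain ⟨a1, a2⟩ := hend i _ hi
        obtain ⟨b1, b2⟩ := hend i' _ hi'
        rcases lt_trichotomy i i' with hlt | heq | hgt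
        · right
          refine ⟨a + (4 * (i : ℚ) + 7) * u, (hFmem _).2 (Or.inl
            ⟨_, mem_topR.2 ⟨i, hid, rfl⟩, Or.inr rfl⟩), ?_, ?_⟩
          · linarith [hwu i]
          · linarith [hstep i i' hlt]
        · subst heq
          rcases Nat.eq_or_lt_of_le hji with hji | hji
          · subst hji
            exact Or.inl ⟨hlen, hi, hi'⟩
          · exfalso
            have := hsm i j hji p hp
            linarith
        · exfalso
          linarith [hstep i' i hgt, hwu i'])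
    have h4 : M.countP (fun q => p.2 - p.1 ≤ q.2 - q.1 ∧ (IsEnd (R j) q.1 ∧ IsEnd (R j) q.2))
        = long Mj (p.2 - p.1) := by
      unfold long
      rw [hMj, Multiset.countP_filter]
    have h5 : M.countP (fun q => p.2 - p.1 ≤ q.2 - q.1) = long M (p.2 - p.1) := by
      unfold long
      congr
    rw [h4, h5] at h3
    rw [hcardF] at hub
    have h6 : K * (2 * (d + ∑ i ∈ Finset.range j, (R i).card)) * 2
        = 4 * K * d + 4 * K * ∑ i ∈ Finset.range j, (R i).card := by ring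
    omega

theorem exists_good (h : ℕ) : ∀ (T : ℕ) (a e : ℚ), 0 < e → ∃ R, Good h T a e R := by
  induction h with
  | zero => exact fun T a e he => ⟨0, good_zero T a e he⟩
  | succ h ih => exact good_succ h ih

end Vale.Agent.P302
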